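import Mathlib

/-!
# Definitions used in the statement of the hand-in for P141
-/

namespace Vale.Agent.P141

open MeasureTheory Filter Topology
open scoped ENNReal

/-- The truncated trilinear Hilbert transform with slopes `1, 2, 3`. -/
noncomputable def trunc (ε R : ℝ) (f₁ f₂ f₃ : SchwartzMap ℝ ℂ) (x : ℝ) : ℂ :=
  ∫ t in {t : ℝ | ε < |t| ∧ |t| < R}, f₁ (x - t) * f₂ (x - 2 * t) * f₃ (x - 3 * t) / (t : ℂ)

/-- The trilinear Hilbert transform is bounded at `(p₁, p₂, p₃, r)`: one constant bounds the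
`L^r` norm of every function that is the principal value of Schwartz inputs. -/
def BoundedAt (p₁ p₂ p₃ : ℝ≥0∞) (r : ℝ) : Prop :=
  ∃ C : ℝ, ∀ (f₁ f₂ f₃ : SchwartzMap ℝ ℂ) (g : ℝ → ℂ),
    (∀ x, Tendsto (fun q : ℝ × ℝ => trunc q.1 q.2 f₁ f₂ f₃ x)
      ((𝓝[>] (0 : ℝ)) ×ˢ atTop) (𝓝 (g x))) →
    eLpNorm g (ENNReal.ofReal r) volume ≤
      ENNReal.ofReal C * eLpNorm f₁ p₁ volume * eLpNorm f₂ p₂ volume * eLpNorm f₃ p₃ volume

/-- A Hölder tuple. -/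
def IsHolder (p₁ p₂ p₃ : ℝ≥0∞) (r : ℝ) : Prop :=
  1 < p₁ ∧ 1 < p₂ ∧ 1 < p₃ ∧ 0 < r ∧ 1 / r = (p₁⁻¹).toReal + (p₂⁻¹).toReal + (p₃⁻¹).toReal

end Vale.Agent.P141
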