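import Vale.Agent.P141.Defs

/-!
# Digit constructions and the resulting unboundedness
-/

namespace Vale.Agent.P141

open MeasureTheory Filter Topology Finset
open scoped ENNReal

/-- A set of digit pairs `(a, b)`, with `x = 2a - b` distinct modulo `M`. -/
structure Gadget (A B C : Finset ℤ) (G : Finset (ℤ × ℤ)) (M : ℕ) : Prop where
  two : 2 ≤ M
  nA : A.Nonempty
  nB : B.Nonempty
  nC : C.Nonempty
  memA : ∀ q ∈ G, q.1 ∈ A
  memB : ∀ q ∈ G, q.2 ∈ B
  memC : ∀ q ∈ G, 2 * q.2 - q.1 ∈ C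
  inj : ∀ q ∈ G, ∀ q' ∈ G, (2 * q.1 - q.2) % (M : ℤ) = (2 * q'.1 - q'.2) % (M : ℤ) → q = q'

/-- `K`-digit numbers with digits in `A`. -/
def digits (A : Finset ℤ) (M : ℕ) : ℕ → Finset ℤ
  | 0 => {0}
  | K + 1 => (A ×ˢ digits A M K).image fun q => q.1 + (M : ℤ) * q.2

/-- Pairs of `K`-digit numbers with digit pairs in `G`. -/
def pairs (G : Finset (ℤ × ℤ)) (M : ℕ) : ℕ → Finset (ℤ × ℤ)
  | 0 => {(0, 0)}
  | K + 1 => (G ×ˢ pairs G M K).image fun q =>
      (q.1.1 + (M : ℤ) * q.2.1, q.1.2 + (M : ℤ) * q.2.2)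

lemma card_digits_le (A : Finset ℤ) (M K : ℕ) : (digits A M K).card ≤ A.card ^ K := by
  induction K with
  | zero => simp [digits]
  | succ K ih =>
    rw [digits, pow_succ']
    refine Finset.card_image_le.trans ?_
    rw [Finset.card_product]
    exact Nat.mul_le_mul_left _ ih

lemma abs_digits_le {A : Finset ℤ} {M : ℕ} {S : ℤ} (hM : 2 ≤ M) (hS : ∀ a ∈ A, |a| ≤ S)
    (hS0 : 0 ≤ S) (K : ℕ) : ∀ a ∈ digits A M K, |a| ≤ S * ((M : ℤ) ^ K - 1) := by
  induction K with
  | zero => simp [digits]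
  | succ K ih =>
    intro a ha
    simp only [digits, Finset.mem_image, Finset.mem_product] at ha
    obtain ⟨q, ⟨hq1, hq2⟩, rfl⟩ := ha
    have hM' : (2 : ℤ) ≤ M := by exact_mod_cast hM
    have h1 := hS _ hq1
    have h2 := ih _ hq2
    calc |q.1 + (M : ℤ) * q.2| ≤ |q.1| + (M : ℤ) * |q.2| := by
          refine (abs_add_le _ _).trans ?_
          rw [abs_mul, abs_of_nonneg (by omega : (0:ℤ) ≤ M)]
      _ ≤ S + (M : ℤ) * (S * ((M : ℤ) ^ K - 1)) := by gcongr
      _ ≤ S * ((M : ℤ) ^ (K + 1) - 1) := by rw [pow_succ]; nlinarith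

lemma pairs_mem {A B C : Finset ℤ} {G : Finset (ℤ × ℤ)} {M : ℕ} (h : Gadget A B C G M) (K : ℕ) :
    ∀ q ∈ pairs G M K,
      q.1 ∈ digits A M K ∧ q.2 ∈ digits B M K ∧ 2 * q.2 - q.1 ∈ digits C M K := by
  induction K with
  | zero => simp [pairs, digits]
  | succ K ih =>
    intro q hq
    simp only [pairs, Finset.mem_image, Finset.mem_product] at hq
    obtain ⟨⟨g, r⟩, ⟨hg, hr⟩, rfl⟩ := hq
    obtain ⟨h1, h2, h3⟩ := ih r hr
    simp only [digits, Finset.mem_image, Finset.mem_product]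
    exact ⟨⟨(g.1, r.1), ⟨h.memA g hg, h1⟩, rfl⟩, ⟨(g.2, r.2), ⟨h.memB g hg, h2⟩, rfl⟩,
      ⟨(2 * g.2 - g.1, 2 * r.2 - r.1), ⟨h.memC g hg, h3⟩, by ring⟩⟩

lemma pairs_card {A B C : Finset ℤ} {G : Finset (ℤ × ℤ)} {M : ℕ} (h : Gadget A B C G M) (K : ℕ) :
    (pairs G M K).card = G.card ^ K ∧
      ∀ q ∈ pairs G M K, ∀ q' ∈ pairs G M K, 2 * q.1 - q.2 = 2 * q'.1 - q'.2 → q = q' := by
  induction K with
  | zero => simp [pairs]
  | succ K ih =>
    have hM0 : (M : ℤ) ≠ 0 := by have := h.two; omega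
    have key : ∀ g ∈ G ×ˢ pairs G M K, ∀ g' ∈ G ×ˢ pairs G M K,
        2 * (g.1.1 + (M : ℤ) * g.2.1) - (g.1.2 + (M : ℤ) * g.2.2)
          = 2 * (g'.1.1 + (M : ℤ) * g'.2.1) - (g'.1.2 + (M : ℤ) * g'.2.2) → g = g' := by
      rintro ⟨g, r⟩ hg ⟨g', r'⟩ hg' heq
      rw [Finset.mem_product] at hg hg'
      simp only at heq
      have hmod : (2 * g.1 - g.2) % (M : ℤ) = (2 * g'.1 - g'.2) % (M : ℤ) := by
        have e : 2 * g.1 - g.2 = 2 * g'.1 - g'.2
            + (M : ℤ) * ((2 * r'.1 - r'.2) - (2 * r.1 - r.2)) := by linarith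
        rw [e, Int.add_mul_emod_self_left]
      obtain rfl := h.inj g hg.1 g' hg'.1 hmod
      have : (M : ℤ) * (2 * r.1 - r.2) = (M : ℤ) * (2 * r'.1 - r'.2) := by linarith
      rw [ih.2 r hg.2 r' hg'.2 (mul_left_cancel₀ hM0 this)]
    refine ⟨?_, ?_⟩
    · rw [pairs, Finset.card_image_of_injOn, Finset.card_product, ih.1, pow_succ']
      intro g hg g' hg' heq
      simp only [Prod.mk.injEq] at heq
      exact key g hg g' hg' (by rw [heq.1, heq.2])
    · intro q hq q' hq' heq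
      simp only [pairs, Finset.mem_image] at hq hq'
      obtain ⟨g, hg, rfl⟩ := hq
      obtain ⟨g', hg', rfl⟩ := hq'
      rw [key g hg g' hg' heq]

/-- A fixed bump. -/
noncomputable def bump : ContDiffBump (0 : ℝ) := ⟨1 / 4, 1 / 2, by norm_num, by norm_num⟩

/-- The sum of the bumps centred at the points of `A`. -/
noncomputable def comb (A : Finset ℤ) (x : ℝ) : ℝ := ∑ n ∈ A, bump (x - (n : ℝ))

lemma comb_nonneg (A : Finset ℤ) (x : ℝ) : 0 ≤ comb A x :=
  Finset.sum_nonneg fun _ _ => bump.nonneg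

lemma bump_eq_zero {y : ℝ} (h : 1 / 2 ≤ |y|) : bump y = 0 :=
  bump.zero_of_le_dist (by rw [Real.dist_eq, sub_zero]; exact h)

lemma bump_eq_one {y : ℝ} (h : |y| ≤ 1 / 4) : bump y = 1 :=
  bump.one_of_mem_closedBall (by rw [Metric.mem_closedBall, Real.dist_eq, sub_zero]; exact h)

lemma comb_ne_zero {A : Finset ℤ} {x : ℝ} (h : comb A x ≠ 0) :
    ∃ n ∈ A, |x - (n : ℝ)| < 1 / 2 := by
  by_contra hc
  push Not at hc
  exact h (Finset.sum_eq_zero fun n hn => bump_eq_zero (hc n hn))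

lemma int_eq_of_near {m n : ℤ} {x : ℝ} (hm : |x - (m : ℝ)| < 1 / 2) (hn : |x - (n : ℝ)| < 1 / 2) :
    m = n := by
  have h : |((m - n : ℤ) : ℝ)| < 1 := by
    push_cast
    rw [abs_lt] at hm hn ⊢
    constructor <;> linarith
  have h' : |m - n| < 1 := by exact_mod_cast h
  have := Int.abs_lt_one_iff.1 h'
  omega

lemma comb_le_one (A : Finset ℤ) (x : ℝ) : comb A x ≤ 1 := by
  by_cases h : ∃ n ∈ A, |x - (n : ℝ)| < 1 / 2
  · obtain ⟨n, hn, hx⟩ := h
    rw [comb, Finset.sum_eq_single_of_mem n hn fun m hm hmn => bump_eq_zero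
      (le_of_not_gt fun hlt => hmn (int_eq_of_near hlt hx))]
    exact bump.le_one
  · push Not at h
    rw [comb, Finset.sum_eq_zero fun n hn => bump_eq_zero (h n hn)]
    exact zero_le_one

lemma one_le_comb {A : Finset ℤ} {x : ℝ} {n : ℤ} (hn : n ∈ A) (hx : |x - (n : ℝ)| ≤ 1 / 4) :
    1 ≤ comb A x :=
  (bump_eq_one hx).symm.le.trans
    (Finset.single_le_sum (f := fun m : ℤ => bump (x - (m : ℝ))) (fun _ _ => bump.nonneg) hn)

lemma continuous_comb (A : Finset ℤ) : Continuous (comb A) :=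
  continuous_finsetSum _ fun n _ => bump.continuous.comp (by fun_prop)

lemma combC_smooth (A : Finset ℤ) : ContDiff ℝ (⊤ : ℕ∞) fun x => ((comb A x : ℝ) : ℂ) :=
  Complex.ofRealCLM.contDiff.comp
    (ContDiff.sum fun n _ => bump.contDiff.comp (contDiff_id.sub contDiff_const))

lemma combC_compact (A : Finset ℤ) : HasCompactSupport fun x => ((comb A x : ℝ) : ℂ) := by
  refine HasCompactSupport.intro
    (A.finite_toSet.isCompact_biUnion fun n _ => isCompact_closedBall ((n : ℤ) : ℝ) (1 / 2))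
    fun x hx => ?_
  by_contra hne
  obtain ⟨n, hn, hlt⟩ := comb_ne_zero (A := A) (x := x) fun h => hne (by rw [h]; simp)
  exact hx (Set.mem_biUnion hn (by rw [Metric.mem_closedBall, Real.dist_eq]; exact hlt.le))

/-- The test function attached to a finite set of integers. -/
noncomputable def testFun (A : Finset ℤ) : SchwartzMap ℝ ℂ :=
  (combC_compact A).toSchwartzMap (combC_smooth A)

lemma testFun_apply (A : Finset ℤ) (x : ℝ) : testFun A x = (comb A x : ℂ) := rfl

lemma testFun_norm (A : Finset ℤ) (p : ℝ≥0∞) :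
    eLpNorm (testFun A) p volume ≤ (A.card : ℝ≥0∞) ^ (p⁻¹).toReal := by
  set U : Set ℝ := ⋃ n ∈ A, Metric.closedBall ((n : ℤ) : ℝ) (1 / 2)
  have hmono : ∀ x, ‖testFun A x‖ ≤ ‖U.indicator (fun _ => (1 : ℝ)) x‖ := by
    intro x
    rw [testFun_apply, Complex.norm_real, Real.norm_eq_abs, Real.norm_eq_abs,
      abs_of_nonneg (comb_nonneg A x)]
    by_cases h : comb A x = 0
    · rw [h]; exact abs_nonneg _
    · obtain ⟨n, hn, hlt⟩ := comb_ne_zero h
      have hxU : x ∈ U := Set.mem_biUnion (t := fun n : ℤ => Metric.closedBall (n : ℝ) (1 / 2)) hn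
        (by rw [Metric.mem_closedBall, Real.dist_eq]; exact hlt.le)
      rw [Set.indicator_of_mem hxU]
      simpa using comb_le_one A x
  refine (eLpNorm_mono hmono).trans
    ((eLpNorm_indicator_const_le (1 : ℝ) p).trans ?_)
  rw [enorm_one, one_mul, one_div, ENNReal.toReal_inv]
  refine ENNReal.rpow_le_rpow ((measure_biUnion_finset_le _ _).trans ?_) (by positivity)
  simp [Real.volume_closedBall]

/-- The transform of three combs with positive differences, as an ordinary integral. -/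
noncomputable def posT (A B C : Finset ℤ) (x : ℝ) : ℝ :=
  ∫ t, comb A (x - t) * comb B (x - 2 * t) * comb C (x - 3 * t) / t

lemma support_bound {A B C : Finset ℤ} {hi : ℤ} (hgap : ∀ a ∈ A, ∀ b ∈ B, 2 ≤ a - b ∧ a - b ≤ hi)
    {x t : ℝ} (h : comb A (x - t) * comb B (x - 2 * t) * comb C (x - 3 * t) / t ≠ 0) :
    1 ≤ t ∧ t ≤ (hi : ℝ) + 1 := by
  obtain ⟨⟨⟨h1, h2⟩, -⟩, -⟩ : ((comb A (x - t) ≠ 0 ∧ comb B (x - 2 * t) ≠ 0) ∧
      comb C (x - 3 * t) ≠ 0) ∧ t ≠ 0 := by
    simpa [div_eq_zero_iff, mul_eq_zero, not_or, and_assoc] using h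
  obtain ⟨a, ha, hax⟩ := comb_ne_zero h1
  obtain ⟨b, hb, hbx⟩ := comb_ne_zero h2
  obtain ⟨g1, g2⟩ := hgap a ha b hb
  have g1' : (2 : ℝ) ≤ (a : ℝ) - b := by exact_mod_cast g1
  have g2' : (a : ℝ) - b ≤ hi := by exact_mod_cast g2
  rw [abs_lt] at hax hbx
  constructor <;> linarith

lemma integrable_posT {A B C : Finset ℤ} {hi : ℤ}
    (hgap : ∀ a ∈ A, ∀ b ∈ B, 2 ≤ a - b ∧ a - b ≤ hi) (x : ℝ) :
    Integrable fun t => comb A (x - t) * comb B (x - 2 * t) * comb C (x - 3 * t) / t := by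
  have hm : Measurable fun t => comb A (x - t) * comb B (x - 2 * t) * comb C (x - 3 * t) / t := by
    have := (continuous_comb A).measurable
    have := (continuous_comb B).measurable
    have := (continuous_comb C).measurable
    fun_prop
  refine (integrableOn_iff_integrable_of_support_subset (s := Set.Icc (1:ℝ) ((hi : ℝ) + 1))
    fun t ht => support_bound hgap ht).1 ?_
  refine IntegrableOn.of_bound measure_Icc_lt_top hm.aestronglyMeasurable 1 ?_
  filter_upwards [ae_restrict_mem measurableSet_Icc] with t ht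
  rw [Real.norm_eq_abs, abs_of_nonneg (div_nonneg (mul_nonneg (mul_nonneg (comb_nonneg _ _)
    (comb_nonneg _ _)) (comb_nonneg _ _)) (by linarith [ht.1]))]
  rw [div_le_one (by linarith [ht.1])]
  refine le_trans ?_ ht.1
  exact mul_le_one₀ (mul_le_one₀ (comb_le_one _ _) (comb_nonneg _ _) (comb_le_one _ _))
    (comb_nonneg _ _) (comb_le_one _ _)

lemma tendsto_trunc {A B C : Finset ℤ} {hi : ℤ}
    (hgap : ∀ a ∈ A, ∀ b ∈ B, 2 ≤ a - b ∧ a - b ≤ hi) (x : ℝ) :
    Tendsto (fun q : ℝ × ℝ => trunc q.1 q.2 (testFun A) (testFun B) (testFun C) x)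
      ((𝓝[>] (0 : ℝ)) ×ˢ atTop) (𝓝 (posT A B C x : ℂ)) := by
  have hev : ∀ᶠ q : ℝ × ℝ in (𝓝[>] (0 : ℝ)) ×ˢ atTop, q.1 < 1 ∧ (hi : ℝ) + 1 < q.2 :=
    (Filter.Eventually.filter_mono nhdsWithin_le_nhds (eventually_lt_nhds one_pos)).prod_mk
      (eventually_gt_atTop _)
  refine tendsto_const_nhds.congr' ?_
  filter_upwards [hev] with q hq
  symm
  have hfun : (fun t : ℝ => testFun A (x - t) * testFun B (x - 2 * t) * testFun C (x - 3 * t)
      / (t : ℂ))
      = fun t => (((comb A (x - t) * comb B (x - 2 * t) * comb C (x - 3 * t) / t : ℝ)) : ℂ) := by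
    funext t
    simp [testFun_apply]
  rw [trunc, hfun, integral_complex_ofReal, posT,
    setIntegral_eq_integral_of_forall_compl_eq_zero fun t ht => ?_]
  by_contra hne
  obtain ⟨h1, h2⟩ := support_bound hgap hne
  refine ht ?_
  show q.1 < |t| ∧ |t| < q.2
  rw [abs_of_nonneg (by linarith)]
  exact ⟨by linarith [hq.1], by linarith [hq.2]⟩

lemma posT_lower {A B C : Finset ℤ} {hi : ℤ} (hgap : ∀ a ∈ A, ∀ b ∈ B, 2 ≤ a - b ∧ a - b ≤ hi)
    {a b : ℤ} (ha : a ∈ A) (hb : b ∈ B) (hc : 2 * b - a ∈ C) {x : ℝ}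
    (hx : |x - ((2 * a - b : ℤ) : ℝ)| ≤ 1 / 16) :
    1 / (8 * ((hi : ℝ) + 1)) ≤ posT A B C x := by
  set n : ℝ := (a : ℝ) - b
  obtain ⟨hn1, hn2⟩ := hgap a ha b hb
  have hn1' : (2 : ℝ) ≤ n := by simp only [n]; exact_mod_cast hn1
  have hn2' : n ≤ hi := by simp only [n]; exact_mod_cast hn2
  set I := Set.Icc (n - 1 / 16) (n + 1 / 16)
  have hint := integrable_posT (C := C) hgap x
  have hnn : ∀ t, 0 ≤ comb A (x - t) * comb B (x - 2 * t) * comb C (x - 3 * t) / t := by
    intro t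
    by_cases h : comb A (x - t) * comb B (x - 2 * t) * comb C (x - 3 * t) / t = 0
    · rw [h]
    · exact div_nonneg (mul_nonneg (mul_nonneg (comb_nonneg _ _) (comb_nonneg _ _))
        (comb_nonneg _ _)) (by linarith [(support_bound hgap h).1])
  push_cast at hx
  rw [abs_le] at hx
  calc 1 / (8 * ((hi : ℝ) + 1)) = ∫ _t in I, 1 / ((hi : ℝ) + 1) := by
        simp [I]; ring
    _ ≤ ∫ t in I, comb A (x - t) * comb B (x - 2 * t) * comb C (x - 3 * t) / t := by
        refine setIntegral_mono_on (integrableOn_const measure_Icc_lt_top.ne) hint.integrableOn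
          measurableSet_Icc fun t ht => ?_
        obtain ⟨ht1, ht2⟩ := ht
        simp only [n] at ht1 ht2 hn1' hn2'
        have e1 := one_le_comb ha (x := x - t) (by rw [abs_le]; constructor <;> linarith)
        have e2 := one_le_comb hb (x := x - 2 * t) (by rw [abs_le]; constructor <;> linarith)
        have e3 := one_le_comb hc (x := x - 3 * t)
          (by push_cast; rw [abs_le]; constructor <;> linarith)
        have e : 1 ≤ comb A (x - t) * comb B (x - 2 * t) * comb C (x - 3 * t) :=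
          one_le_mul_of_one_le_of_one_le (one_le_mul_of_one_le_of_one_le e1 e2) e3
        gcongr
        all_goals linarith
    _ ≤ posT A B C x := setIntegral_le_integral hint (Eventually.of_forall hnn)

/-- The criterion: a gadget gives unboundedness. -/
theorem not_boundedAt {A B C : Finset ℤ} {G : Finset (ℤ × ℤ)} {M : ℕ} (h : Gadget A B C G M)
    {p₁ p₂ p₃ : ℝ≥0∞} {r : ℝ} (hr : 0 < r)
    (hlt : (M : ℝ) * (A.card : ℝ) ^ (p₁⁻¹).toReal * (B.card : ℝ) ^ (p₂⁻¹).toReal
      * (C.card : ℝ) ^ (p₃⁻¹).toReal < (G.card : ℝ) ^ (1 / r)) :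
    ¬ BoundedAt p₁ p₂ p₃ r := by
  rintro ⟨C0, hC0⟩
  obtain ⟨S, hS, hS1⟩ : ∃ S : ℤ, (∀ a ∈ A ∪ B ∪ C, |a| ≤ S) ∧ 1 ≤ S :=
    ⟨1 + ∑ a ∈ A ∪ B ∪ C, |a|, fun a ha => by
      have := Finset.single_le_sum (f := fun a : ℤ => |a|) (fun _ _ => abs_nonneg _) ha
      linarith, by
      have : 0 ≤ ∑ a ∈ A ∪ B ∪ C, |a| := Finset.sum_nonneg fun _ _ => abs_nonneg _
      linarith⟩
  set w₁ := (p₁⁻¹).toReal
  set w₂ := (p₂⁻¹).toReal
  set w₃ := (p₃⁻¹).toReal
  set den : ℝ := (M : ℝ) * (A.card : ℝ) ^ w₁ * (B.card : ℝ) ^ w₂ * (C.card : ℝ) ^ w₃ with hden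
  have hM0 : (0 : ℝ) < M := by have := h.two; exact_mod_cast (by omega : 0 < M)
  have hA0 : (0 : ℝ) < A.card := by exact_mod_cast h.nA.card_pos
  have hB0 : (0 : ℝ) < B.card := by exact_mod_cast h.nB.card_pos
  have hC00 : (0 : ℝ) < C.card := by exact_mod_cast h.nC.card_pos
  have hden0 : 0 < den := by positivity
  set q := (G.card : ℝ) ^ (1 / r) / den with hq
  have hq1 : 1 < q := by rw [hq, one_lt_div hden0]; exact hlt
  have hkey : ∀ K : ℕ, (1 / 8 : ℝ) ^ (1 / r) / (8 * (5 * (S : ℝ) + 3)) * q ^ K ≤ max C0 0 := by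
    intro K
    set s : ℤ := 2 * S * (M : ℤ) ^ K + 2
    set A' := (digits A M K).image fun a => a + s
    set B' := digits B M K
    set C' := (digits C M K).image fun c => c - s
    set hi : ℤ := 4 * S * (M : ℤ) ^ K + 2
    have hMK : (1 : ℤ) ≤ (M : ℤ) ^ K := one_le_pow₀ (by have := h.two; omega)
    have hgap : ∀ a ∈ A', ∀ b ∈ B', 2 ≤ a - b ∧ a - b ≤ hi := by
      intro a ha b hb
      simp only [A', Finset.mem_image] at ha
      obtain ⟨a0, ha0, rfl⟩ := ha
      have h1 := abs_le.1 (abs_digits_le h.two (fun x hx => hS x (by simp [hx])) (by omega) K a0 ha0)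
      have h2 := abs_le.1 (abs_digits_le h.two (fun x hx => hS x (by simp [hx])) (by omega) K b hb)
      simp only [s, hi]
      constructor <;> nlinarith
    set X := (pairs G M K).image fun q => 2 * (q.1 + s) - q.2
    have hXcard : X.card = G.card ^ K := by
      rw [Finset.card_image_of_injOn, (pairs_card h K).1]
      intro u hu u' hu' heq
      exact (pairs_card h K).2 u hu u' hu' (by simp only at heq; linarith)
    set g : ℝ → ℂ := fun x => (posT A' B' C' x : ℂ)
    have hbd := hC0 (testFun A') (testFun B') (testFun C') g fun x => tendsto_trunc hgap x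
    set U : Set ℝ := ⋃ n ∈ X, Metric.closedBall ((n : ℤ) : ℝ) (1 / 16)
    set c : ℝ := 1 / (8 * ((hi : ℝ) + 1))
    have hhi : (0:ℝ) < (hi : ℝ) + 1 := by
      have : 0 ≤ hi := by simp only [hi]; positivity
      have : (0:ℝ) ≤ hi := by exact_mod_cast this
      linarith
    have hc : 0 < c := by positivity
    have hU : MeasurableSet U := X.measurableSet_biUnion fun n _ => measurableSet_closedBall
    have hvol : volume U = ENNReal.ofReal ((G.card : ℝ) ^ K / 8) := by
      rw [measure_biUnion_finset ?_ fun n _ => measurableSet_closedBall]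
      · simp only [Real.volume_closedBall, Finset.sum_const, nsmul_eq_mul, hXcard]
        rw [← ENNReal.ofReal_natCast, ← ENNReal.ofReal_mul (by positivity)]
        congr 1
        push_cast
        ring
      · intro m _ n _ hmn
        refine Set.disjoint_left.2 fun x hxm hxn => hmn (int_eq_of_near (x := x) ?_ ?_)
        · rw [Metric.mem_closedBall, Real.dist_eq] at hxm; linarith
        · rw [Metric.mem_closedBall, Real.dist_eq] at hxn; linarith
    have hlow : ∀ x, ‖U.indicator (fun _ => c) x‖ ≤ ‖g x‖ := by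
      intro x
      by_cases hx : x ∈ U
      · rw [Set.indicator_of_mem hx, Complex.norm_real, Real.norm_eq_abs, Real.norm_eq_abs,
          abs_of_pos hc]
        simp only [U, Set.mem_iUnion, Metric.mem_closedBall, Real.dist_eq] at hx
        obtain ⟨n, hn, hxn⟩ := hx
        simp only [X, Finset.mem_image] at hn
        obtain ⟨u, hu, rfl⟩ := hn
        obtain ⟨m1, m2, m3⟩ := pairs_mem h K u hu
        refine le_trans ?_ (le_abs_self _)
        refine posT_lower hgap (a := u.1 + s) (b := u.2) (Finset.mem_image.2 ⟨u.1, m1, rfl⟩) m2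
          (Finset.mem_image.2 ⟨_, m3, by ring⟩) hxn
      · rw [Set.indicator_of_notMem hx, norm_zero]; exact norm_nonneg _
    have hL : ENNReal.ofReal (c * ((G.card : ℝ) ^ K / 8) ^ (1 / r))
        ≤ eLpNorm g (ENNReal.ofReal r) volume := by
      refine le_trans (le_of_eq ?_)
        (eLpNorm_mono hlow)
      rw [eLpNorm_indicator_const hU (by simpa using hr) ENNReal.ofReal_ne_top, hvol,
        ENNReal.toReal_ofReal hr.le, Real.enorm_eq_ofReal hc.le,
        ENNReal.ofReal_rpow_of_nonneg (by positivity) (by positivity),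
        ← ENNReal.ofReal_mul hc.le]
    have hR : ∀ (D D' : Finset ℤ) (p : ℝ≥0∞), D'.card ≤ D.card ^ K →
        eLpNorm (testFun D') p volume ≤ ENNReal.ofReal (((D.card : ℝ) ^ K) ^ (p⁻¹).toReal) := by
      intro D D' p hcard
      refine (testFun_norm D' p).trans ?_
      rw [← ENNReal.ofReal_rpow_of_nonneg (by positivity) ENNReal.toReal_nonneg]
      refine ENNReal.rpow_le_rpow ?_ ENNReal.toReal_nonneg
      rw [← ENNReal.ofReal_natCast]
      exact ENNReal.ofReal_le_ofReal (by exact_mod_cast hcard)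
    have hA' : A'.card ≤ A.card ^ K := Finset.card_image_le.trans (card_digits_le A M K)
    have hC' : C'.card ≤ C.card ^ K := Finset.card_image_le.trans (card_digits_le C M K)
    have hchain := hL.trans (hbd.trans (mul_le_mul' (mul_le_mul' (mul_le_mul'
      (ENNReal.ofReal_le_ofReal (le_max_left C0 0)) (hR A A' p₁ hA'))
      (hR B B' p₂ (card_digits_le B M K))) (hR C C' p₃ hC')))
    rw [← ENNReal.ofReal_mul (le_max_right _ _), ← ENNReal.ofReal_mul (by positivity),
      ← ENNReal.ofReal_mul (by positivity), ENNReal.ofReal_le_ofReal_iff (by positivity)] at hchain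
    have hswap : ∀ (u w : ℝ), 0 ≤ u → (u ^ K) ^ w = (u ^ w) ^ K := fun u w hu => by
      rw [← Real.rpow_natCast, ← Real.rpow_mul hu, mul_comm, Real.rpow_mul hu, Real.rpow_natCast]
    have hpow : ((G.card : ℝ) ^ K / 8) ^ (1 / r)
        = ((G.card : ℝ) ^ (1 / r)) ^ K * (1 / 8 : ℝ) ^ (1 / r) := by
      rw [div_eq_mul_one_div, Real.mul_rpow (by positivity) (by norm_num),
        hswap _ _ (Nat.cast_nonneg _)]
    rw [hpow, hswap _ _ hA0.le, hswap _ _ hB0.le, hswap _ _ hC00.le] at hchain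
    have hS' : (1 : ℝ) ≤ (S : ℝ) := by exact_mod_cast hS1
    have hMK' : (1 : ℝ) ≤ (M : ℝ) ^ K := by exact_mod_cast hMK
    have hc' : 1 / (8 * (5 * (S : ℝ) + 3) * (M : ℝ) ^ K) ≤ c := by
      simp only [c, hi]
      push_cast
      refine one_div_le_one_div_of_le (by positivity) ?_
      nlinarith
    have h9 : ((G.card : ℝ) ^ (1 / r)) ^ K * (1 / 8 : ℝ) ^ (1 / r)
        / (8 * (5 * (S : ℝ) + 3) * (M : ℝ) ^ K)
        ≤ max C0 0 * ((A.card : ℝ) ^ w₁) ^ K * ((B.card : ℝ) ^ w₂) ^ K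
          * ((C.card : ℝ) ^ w₃) ^ K := by
      refine le_trans ?_ hchain
      rw [div_eq_mul_one_div, mul_comm]
      exact mul_le_mul_of_nonneg_right hc' (by positivity)
    rw [div_le_iff₀ (by positivity)] at h9
    rw [hq, div_pow, hden, mul_pow, mul_pow, mul_pow, div_mul_div_comm,
      div_le_iff₀ (by positivity)]
    linarith
  have ht := (tendsto_pow_atTop_atTop_of_one_lt hq1).const_mul_atTop
    (show 0 < (1 / 8 : ℝ) ^ (1 / r) / (8 * (5 * (S : ℝ) + 3)) by
      have : (1 : ℝ) ≤ (S : ℝ) := by exact_mod_cast hS1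
      positivity)
  obtain ⟨K, hK⟩ := (ht.eventually_gt_atTop (max C0 0)).exists
  linarith [hkey K]

end Vale.Agent.P141
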